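import Vale.Agent.P352G75.Lt

/-!
# P352G9, graded net-only route, row JB: joint bounds for words with supports in the unit ball
-/

set_option linter.all false

open Filter Topology Metric
open scoped SchwartzMap ComplexConjugate

namespace Vale.Agent.P352X.EG.NG

open Vale.Agent.P352X.EB

open Vale.Agent.P352 Vale.Agent.P352.GF Vale.Agent.P352.H246
open UniformSpace (Completion)

noncomputable section

namespace JBp

variable {Λ : Type*}

theorem sn0 (m : ℕ) (f : Sch) : 0 ≤ sn m f := apply_nonneg _ _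

theorem sn_mono {m m' : ℕ} (h : m ≤ m') (f : Sch) : sn m f ≤ sn m' f := by
  rw [Api4.sn_eq, Api4.sn_eq]
  exact ST.sn_mono h f

theorem snw_cons (m : ℕ) (p : Λ × Sch) (u : List (Λ × Sch)) :
    snw m (p :: u) = sn m p.2 * snw m u := by simp [snw]

theorem snw0 (m : ℕ) (u : List (Λ × Sch)) : 0 ≤ snw m u := by
  induction u with
  | nil => simp [snw]
  | cons p u ih => rw [snw_cons]; exact mul_nonneg (sn0 _ _) ih

theorem snw_mono {m m' : ℕ} (h : m ≤ m') (u : List (Λ × Sch)) : snw m u ≤ snw m' u := by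
  induction u with
  | nil => simp [snw]
  | cons p u ih =>
    rw [snw_cons, snw_cons]
    exact mul_le_mul (sn_mono h _) ih (snw0 _ _) (sn0 _ _)

theorem snw_snoc (m : ℕ) (u : List (Λ × Sch)) (p : Λ × Sch) :
    snw m (u ++ [p]) = snw m u * sn m p.2 := by simp [snw]

/-- neighbourhoods of zero contain balls of the norms `sn` -/
theorem ball_sub {U : Set Sch} (hU : U ∈ 𝓝 (0 : Sch)) :
    ∃ (k : ℕ) (r : ℝ), 0 < r ∧ ∀ g, sn k g < r → g ∈ U := by
  obtain ⟨s, r, hr, h⟩ := ((schwartz_withSeminorms ℝ V ℂ).mem_nhds_iff 0 U).1 hU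
  refine ⟨s.sup (fun m => max m.1 m.2), r, hr, fun g hg => h ?_⟩
  rw [Seminorm.mem_ball_zero]
  refine lt_of_le_of_lt ?_ hg
  rw [Api4.sn_eq]
  refine Seminorm.finset_sup_apply_le (apply_nonneg _ _) fun m hm => ?_
  have := Finset.le_sup (f := fun m : ℕ × ℕ => max m.1 m.2) hm
  exact ST.seminorm_le_sn ((le_max_left _ _).trans this) ((le_max_right _ _).trans this) g

/-- scaling -/
theorem scale {H : Type*} [NormedAddCommGroup H] [NormedSpace ℂ H] (T : Sch →ₗ[ℂ] H) {k : ℕ}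
    {r B : ℝ} (hr : 0 < r) (h : ∀ g, sn k g < r → ‖T g‖ ≤ B) (g : Sch) :
    ‖T g‖ ≤ B / r * sn k g := by
  have hB : 0 ≤ B := (norm_nonneg _).trans (h 0 (by
    rw [Api4.sn_eq, map_zero]
    exact hr))
  have hg := sn0 k g
  have key : ∀ δ : ℝ, 0 < δ → ‖T g‖ ≤ B / r * (sn k g + δ) := by
    intro δ hδ
    have hp : 0 < sn k g + δ := by linarith
    have ht : 0 < r / (sn k g + δ) := div_pos hr hp
    have h1 : sn k (((r / (sn k g + δ) : ℝ) : ℂ) • g) < r := by
      rw [Api4.sn_eq]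
      refine (ST.sn_smul _ g k).trans_lt ?_
      rw [← Api4.sn_eq, Complex.norm_real, Real.norm_of_nonneg ht.le, div_mul_eq_mul_div,
        div_lt_iff₀ hp]
      exact mul_lt_mul_of_pos_left (by linarith) hr
    have h2 := h _ h1
    rw [map_smul, norm_smul, Complex.norm_real, Real.norm_of_nonneg ht.le, div_mul_eq_mul_div,
      div_le_iff₀ hp] at h2
    rw [div_mul_eq_mul_div, le_div_iff₀ hr]
    linarith
  refine le_of_forall_pos_le_add fun ε hε => ?_
  have hq : 0 < B / r + 1 := by positivity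
  have h3 := key (ε / (B / r + 1)) (div_pos hε hq)
  have h4 : B / r * (ε / (B / r + 1)) ≤ ε := by
    rw [← mul_div_assoc, div_le_iff₀ hq]
    nlinarith
  rw [mul_add] at h3
  linarith

/-- the uniform boundedness principle with weights -/
theorem ubp {H ι : Type*} [NormedAddCommGroup H] [NormedSpace ℂ H] [BaireSpace Sch]
    (T : ι → Sch →ₗ[ℂ] H) (hT : ∀ i, Continuous (T i)) (w : ℕ → ι → ℝ)
    (h : ∀ f, ∃ m : ℕ, ∀ i, ‖T i f‖ ≤ w m i) :
    ∃ (m k : ℕ) (C : ℝ), 0 ≤ C ∧ ∀ i f, ‖T i f‖ ≤ C * w m i * sn k f := by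
  have hc : ∀ m : ℕ, IsClosed {f : Sch | ∀ i, ‖T i f‖ ≤ w m i} := fun m => by
    rw [Set.setOf_forall]
    exact isClosed_iInter fun i => isClosed_le (hT i).norm continuous_const
  obtain ⟨m, f0, hf0⟩ := nonempty_interior_of_iUnion_of_closed hc
    (Set.eq_univ_of_forall fun f => Set.mem_iUnion.2 (h f))
  have h0 : ∀ i, ‖T i f0‖ ≤ w m i := interior_subset hf0
  have hU : (fun g => f0 + g) ⁻¹' {f : Sch | ∀ i, ‖T i f‖ ≤ w m i} ∈ 𝓝 (0 : Sch) := by
    refine (continuous_const.add continuous_id).continuousAt.preimage_mem_nhds ?_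
    simpa using mem_interior_iff_mem_nhds.1 hf0
  obtain ⟨k, r, hr, hk⟩ := ball_sub hU
  refine ⟨m, k, 2 / r, by positivity, fun i f => ?_⟩
  have := scale (T i) hr (B := 2 * w m i) (k := k) (fun g hg => ?_) f
  · refine this.trans (le_of_eq ?_)
    ring
  have h1 : ‖T i (f0 + g)‖ ≤ w m i := hk g hg i
  have h2 : T i g = T i (f0 + g) - T i f0 := by rw [map_add, add_sub_cancel_left]
  rw [h2]
  refine (norm_sub_le _ _).trans ?_
  linarith [h0 i]

variable {D : Type*} [NormedAddCommGroup D] [InnerProductSpace ℂ D] {c : Cg D} [Nd c]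
  {x : Lt c Λ}

theorem inn (t : E1 x) (f : Sch) : In Set.univ (cutf 0 (ev f)) :=
  ⟨(t.ana.inn 0 _ ⟨f, rfl⟩).1, (t.ana.inn 0 _ ⟨f, rfl⟩).2.1, Set.subset_univ _⟩

theorem ap_cons (p : Λ × Sch) (u : List (Λ × Sch)) (v : Completion D) :
    x.ap (cutw 0 (evw (p :: u))) v = x.op p.1 (cutf 0 (ev p.2)) (x.ap (cutw 0 (evw u)) v) := rfl

theorem ap_snoc (u : List (Λ × Sch)) (p : Λ × Sch) (v : Completion D) :
    x.ap (cutw 0 (evw (u ++ [p]))) v = x.ap (cutw 0 (evw u)) (x.op p.1 (cutf 0 (ev p.2)) v) := by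
  simp [Lt.ap, evw, cutw, List.foldr_append]

theorem ap_mem (t : E1 x) (u : List (Λ × Sch)) {v : Completion D} (hv : D1 c v) :
    D1 c (x.ap (cutw 0 (evw u)) v) := by
  induction u with
  | nil => exact hv
  | cons p u ih => exact t.ops.mem _ _ _ (inn t _) ih

theorem ap_lin (t : E1 x) (u : List (Λ × Sch)) (z : ℂ) {v w : Completion D} (hv : D1 c v)
    (hw : D1 c w) : x.ap (cutw 0 (evw u)) (v + z • w) =
      x.ap (cutw 0 (evw u)) v + z • x.ap (cutw 0 (evw u)) w := by
  induction u with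
  | nil => rfl
  | cons p u ih =>
    rw [ap_cons, ap_cons, ap_cons, ih, t.ops.add _ _ _ _ (inn t _) (ap_mem t u hv)
      (t.ops.d_smul _ _ (ap_mem t u hw)), t.ops.smul _ _ _ _ (inn t _) (ap_mem t u hw)]

/-- the word can be moved to the other side -/
theorem ap_herm (t : E1 x) (u : List (Λ × Sch)) {w : Completion D} (hw : D1 c w) :
    ∃ w', ∀ v, D1 c v → inner ℂ w (x.ap (cutw 0 (evw u)) v) = inner ℂ w' v := by
  induction u generalizing w with
  | nil => exact ⟨w, fun v _ => rfl⟩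
  | cons p u ih =>
    obtain ⟨w', h⟩ := ih (t.ops.mem (x.dag p.1) _ w (inn t p.2).bar hw)
    refine ⟨w', fun v hv => ?_⟩
    rw [ap_cons, ← h v hv, ← inner_conj_symm, t.ops.herm _ _ _ _ (inn t _) (ap_mem t u hv) hw,
      inner_conj_symm]

theorem op_lin (t : E1 x) (a : Λ) {v : Completion D} (hv : D1 c v) (f g : Sch) (z : ℂ) :
    x.op a (cutf 0 (ev (f + z • g))) v =
      x.op a (cutf 0 (ev f)) v + z • x.op a (cutf 0 (ev g)) v := by
  rw [← t.ops.lin a _ _ z v (inn t f) (inn t g) hv]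
  congr 1
  funext y
  simp [cutf, ev]
  ring

/-- the local vectors -/
def S1 (t : E1 x) : Submodule ℂ (Completion D) where
  carrier := {v | D1 c v}
  add_mem' := fun h h' => t.ops.d_add _ _ h h'
  zero_mem' := t.ops.d_zero
  smul_mem' := fun z _ h => t.ops.d_smul z _ h

/-- maps with `F (f + z g) = F f + z F g` are linear -/
def mkL {H : Type*} [AddCommGroup H] [Module ℂ H] (F : Sch → H)
    (h : ∀ f g (z : ℂ), F (f + z • g) = F f + z • F g) : Sch →ₗ[ℂ] H where
  toFun := F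
  map_add' := fun f g => by simpa using h f g 1
  map_smul' := fun z g => by
    have h0 : F 0 = 0 := by simpa using h 0 0 1
    simpa [h0] using h 0 g z

/-- the last slot -/
def Ψ (t : E1 x) (a : Λ) {v : Completion D} (hv : D1 c v) (u : List (Λ × Sch)) : Sch →ₗ[ℂ] S1 t :=
  mkL (fun f => ⟨x.ap (cutw 0 (evw u)) (x.op a (cutf 0 (ev f)) v),
      ap_mem t u (t.ops.mem _ _ _ (inn t f) hv)⟩) fun f g z => Subtype.ext (by
    show x.ap _ _ = x.ap _ _ + z • x.ap _ _
    rw [op_lin t a hv, ap_lin t u z (t.ops.mem _ _ _ (inn t f) hv) (t.ops.mem _ _ _ (inn t g) hv)])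

theorem Ψ_apply (t : E1 x) (a : Λ) {v : Completion D} (hv : D1 c v) (u : List (Λ × Sch)) (f : Sch) :
    (Ψ t a hv u f : Completion D) = x.ap (cutw 0 (evw u)) (x.op a (cutf 0 (ev f)) v) := rfl

theorem Ψ_cont (t : E1 x) (a : Λ) {v : Completion D} (hv : D1 c v) (u : List (Λ × Sch)) :
    Continuous (Ψ t a hv u) := by
  haveI := t.ana.barr
  refine cont_of_weak (Ψ t a hv u) dense_univ fun z _ => ?_
  obtain ⟨w', h⟩ := ap_herm t u (w := z.1) z.2
  have e : (fun f => inner ℂ z (Ψ t a hv u f)) =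
      fun f : Sch => inner ℂ w' (x.op a (cutf 0 (ev f)) v) := by
    funext f
    rw [Submodule.coe_inner, Ψ_apply, h _ (t.ops.mem _ _ _ (inn t f) hv)]
  rw [e]
  exact continuous_const.inner (t.ops.cont a 0 v hv)

end JBp

variable {D : Type*} [NormedAddCommGroup D] [InnerProductSpace ℂ D] {c : Cg D} [Nd c] {Λ : Type*}
  {x : Lt c Λ}

open JBp in
theorem jb_row (t : E1 x) : JB x := by
  intro ls
  induction ls using List.reverseRecOn with
  | nil =>
    intro v _
    refine ⟨0, ‖v‖, norm_nonneg _, fun u hu => ?_⟩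
    obtain rfl := List.map_eq_nil_iff.1 hu
    simp [snw, Lt.ap, cutw, evw]
  | append_singleton ls a ih =>
    intro v hv
    haveI := t.ana.baire
    obtain ⟨m, k, C, hC, h⟩ := ubp
      (fun u : {u : List (Λ × Sch) // u.map Prod.fst = ls} => Ψ t a hv u.1)
      (fun u => Ψ_cont t a hv u.1) (fun m u => m * snw m u.1) fun f => by
        obtain ⟨m, C, hC, h⟩ := ih _ (t.ops.mem a _ v (inn t f) hv)
        refine ⟨max m ⌈C⌉₊, fun u => (h u.1 u.2).trans ?_⟩
        refine mul_le_mul ((Nat.le_ceil C).trans ?_) (snw_mono (le_max_left _ _) _) (snw0 _ _)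
          (Nat.cast_nonneg _)
        exact_mod_cast le_max_right _ _
    refine ⟨max m k, C * m, by positivity, fun u hu => ?_⟩
    obtain ⟨u', w, rfl, hu', hw⟩ := List.map_eq_append_iff.1 hu
    obtain ⟨p, w', rfl, hp, hw'⟩ := List.map_eq_cons_iff.1 hw
    obtain rfl := List.map_eq_nil_iff.1 hw'
    subst hp
    have h1 := h ⟨u', hu'⟩ p.2
    rw [ap_snoc, snw_snoc]
    refine (le_of_eq rfl).trans (h1.trans ?_)
    have h2 : snw m u' * sn k p.2 ≤ snw (max m k) u' * sn (max m k) p.2 :=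
      mul_le_mul (snw_mono (le_max_left _ _) _) (sn_mono (le_max_right _ _) _) (sn0 _ _) (snw0 _ _)
    calc C * (m * snw m u') * sn k p.2 = C * m * (snw m u' * sn k p.2) := by ring
      _ ≤ _ := mul_le_mul_of_nonneg_left h2 (by positivity)

end

end Vale.Agent.P352X.EG.NG
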